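import Vale.Agent.P075.Bdl.B1

/-!
# The absolute form of the dyadic triangular bound

For all `F₀, F₁, F₂ ∈ L³([0,∞)²)` the local forms `L_I` over all scales and all dyadic triples with
XOR zero are absolutely summable.
-/

set_option autoImplicit false

namespace Vale.Agent.P075.H83

open MeasureTheory Set Filter Topology Vale.Agent.P075

/-- finite sums of `|L_I|` for bounded measurable functions -/
theorem fin_sum_le (T : Finset (ℤ × (ℕ × ℕ))) {F : Fin 3 → ℝ × ℝ → ℝ}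
    (hF : ∀ v, Measurable (F v)) {M : ℝ} (hM0 : 0 ≤ M) (hM : ∀ v p, |F v p| ≤ M)
    (hI : ∀ v, IntegrableOn (fun x => |F v x| ^ 3) quad) :
    ∑ t ∈ T, |LI t.1 ![t.2.1, t.2.2, t.2.1 ^^^ t.2.2] F|
      ≤ (609 / 2) * ∑ v, ∫ x in quad, |F v x| ^ 3 := by
  classical
  -- bottom scale
  obtain ⟨K, hK⟩ : ∃ K : ℤ, ∀ t ∈ T, K < t.1 := by
    obtain ⟨b, hb⟩ := (T.image Prod.fst).bddBelow
    refine ⟨b - 1, fun t ht => ?_⟩
    have := hb (Finset.mem_coe.mpr (Finset.mem_image_of_mem Prod.fst ht))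
    omega
  -- size
  obtain ⟨B, hB⟩ : ∃ B : ℕ, ∀ t ∈ T, (t.1 - K).toNat ≤ B ∧ t.2.1 ≤ B ∧ t.2.2 ≤ B := by
    refine ⟨∑ t ∈ T, ((t.1 - K).toNat + t.2.1 + t.2.2), fun t ht => ?_⟩
    have := Finset.single_le_sum (f := fun t : ℤ × (ℕ × ℕ) => (t.1 - K).toNat + t.2.1 + t.2.2)
      (fun i _ => Nat.zero_le _) ht
    omega
  set n : ℕ := 2 * B with hn
  have hlt : ∀ t ∈ T, 1 ≤ (t.1 - K).toNat ∧ (t.1 - K).toNat ≤ n ∧
      K + ((t.1 - K).toNat : ℕ) = t.1 ∧ t.2.1 < 2 ^ (n - (t.1 - K).toNat) ∧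
      t.2.2 < 2 ^ (n - (t.1 - K).toNat) := by
    intro t ht
    have h1 := hK t ht
    obtain ⟨h2, h3, h4⟩ := hB t ht
    have h5 : B < 2 ^ (n - (t.1 - K).toNat) := by
      calc B < 2 ^ B := Nat.lt_two_pow_self
        _ ≤ 2 ^ (n - (t.1 - K).toNat) := Nat.pow_le_pow_right (by norm_num) (by omega)
    refine ⟨by omega, by omega, by omega, by omega, by omega⟩
  set g : ℕ × (ℕ × ℕ) → ℝ := fun s => |LI (K + (s.1 : ℕ)) ![s.2.1, s.2.2, s.2.1 ^^^ s.2.2] F|
    with hg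
  set U : Finset (ℕ × (ℕ × ℕ)) := (Finset.Icc 1 n).sigma
      (fun k => Finset.range (2 ^ (n - k)) ×ˢ Finset.range (2 ^ (n - k))) |>.map
      ⟨fun s : (_ : ℕ) × (ℕ × ℕ) => (s.1, s.2), fun a b h => by
        obtain ⟨a1, a2⟩ := a; obtain ⟨b1, b2⟩ := b; simp only [Prod.mk.injEq] at h
        obtain ⟨rfl, rfl⟩ := h; rfl⟩ with hU
  have h1 : ∑ t ∈ T, |LI t.1 ![t.2.1, t.2.2, t.2.1 ^^^ t.2.2] F|
      = ∑ t ∈ T, g ((t.1 - K).toNat, t.2) := by
    refine Finset.sum_congr rfl (fun t ht => ?_)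
    obtain ⟨_, _, h3, _, _⟩ := hlt t ht
    rw [hg]
    simp only
    rw [h3]
  have hinj : Set.InjOn (fun t : ℤ × (ℕ × ℕ) => ((t.1 - K).toNat, t.2)) T := by
    intro t ht t' ht' h
    have a1 := hK t ht
    have a2 := hK t' ht'
    simp only [Prod.mk.injEq] at h
    refine Prod.ext ?_ h.2
    have := h.1
    omega
  have h2 : ∑ t ∈ T, g ((t.1 - K).toNat, t.2) ≤ ∑ s ∈ U, g s := by
    rw [← Finset.sum_image (f := g) hinj]
    refine Finset.sum_le_sum_of_subset_of_nonneg ?_ (fun j _ _ => abs_nonneg _)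
    intro s hs
    rw [Finset.mem_image] at hs
    obtain ⟨t, ht, rfl⟩ := hs
    obtain ⟨h1, h2, _, h4, h5⟩ := hlt t ht
    rw [hU, Finset.mem_map]
    refine ⟨⟨(t.1 - K).toNat, t.2⟩, ?_, rfl⟩
    rw [Finset.mem_sigma]
    refine ⟨Finset.mem_Icc.mpr ⟨h1, h2⟩, ?_⟩
    rw [Finset.mem_product]
    exact ⟨Finset.mem_range.mpr h4, Finset.mem_range.mpr h5⟩
  have h3 : ∑ s ∈ U, g s = ∑ k ∈ Finset.Icc 1 n, ∑ p ∈ Finset.range (2 ^ (n - k)),
      ∑ q ∈ Finset.range (2 ^ (n - k)), |LI (K + (k : ℕ)) ![p, q, p ^^^ q] F| := by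
    rw [hU, Finset.sum_map, Finset.sum_sigma]
    refine Finset.sum_congr rfl (fun k _ => ?_)
    rw [Finset.sum_product]
    rfl
  rw [h1]
  refine h2.trans ?_
  rw [h3]
  refine (total_le K n hF hM0 hM).trans ?_
  refine mul_le_mul_of_nonneg_left (Finset.sum_le_sum (fun v _ => ?_)) (by norm_num)
  refine setIntegral_mono_set (hI v) (Eventually.of_forall (fun x => by positivity)) ?_
  refine LE.le.eventuallyLE ?_
  exact Set.prod_mono (fun x hx => hx.1) (fun x hx => hx.1)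

/-- product form -/
theorem fin_prod_le (T : Finset (ℤ × (ℕ × ℕ))) {F : Fin 3 → ℝ × ℝ → ℝ}
    (hF : ∀ v, Measurable (F v)) {M : ℝ} (hM0 : 0 ≤ M) (hM : ∀ v p, |F v p| ≤ M)
    (hI : ∀ v, IntegrableOn (fun x => |F v x| ^ 3) quad) {N : Fin 3 → ℝ} (hN0 : ∀ v, 0 ≤ N v)
    (hN : ∀ v, ∫ x in quad, |F v x| ^ 3 ≤ N v ^ 3) :
    ∑ t ∈ T, |LI t.1 ![t.2.1, t.2.2, t.2.1 ^^^ t.2.2] F| ≤ (1827 / 2) * ∏ v, N v := by
  have key : ∀ δ : ℝ, 0 < δ → ∑ t ∈ T, |LI t.1 ![t.2.1, t.2.2, t.2.1 ^^^ t.2.2] F|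
      ≤ (1827 / 2) * ∏ v, (N v + δ) := by
    intro δ hδ
    set c : Fin 3 → ℝ := fun v => (N v + δ)⁻¹ with hc
    have hNδ : ∀ v, 0 < N v + δ := fun v => by have := hN0 v; linarith
    have hcpos : ∀ v, 0 < c v := fun v => inv_pos.mpr (hNδ v)
    set C : ℝ := ∑ v, c v with hC
    have hcC : ∀ v, c v ≤ C := fun v => Finset.single_le_sum (f := c) (fun i _ => (hcpos i).le)
      (Finset.mem_univ v)
    have hC0 : 0 ≤ C := Finset.sum_nonneg (fun v _ => (hcpos v).le)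
    have h := fin_sum_le T (F := fun v p => c v * F v p) (fun v => (hF v).const_mul (c v))
      (M := C * M) (by positivity)
      (fun v p => by
        rw [abs_mul, abs_of_pos (hcpos v)]
        exact mul_le_mul (hcC v) (hM v p) (abs_nonneg _) hC0)
      (fun v => by
        have := (hI v).const_mul (c v ^ 3)
        refine this.congr (Eventually.of_forall (fun x => ?_))
        simp only
        rw [abs_mul, abs_of_pos (hcpos v), mul_pow])
    have h1 : ∑ t ∈ T, |LI t.1 ![t.2.1, t.2.2, t.2.1 ^^^ t.2.2] (fun v p => c v * F v p)|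
        = (∏ v, c v) * ∑ t ∈ T, |LI t.1 ![t.2.1, t.2.2, t.2.1 ^^^ t.2.2] F| := by
      rw [Finset.mul_sum]
      refine Finset.sum_congr rfl (fun t _ => ?_)
      rw [LI_smul, abs_mul, abs_of_pos (Finset.prod_pos fun v _ => hcpos v)]
    rw [h1] at h
    have h2 : ∀ v, ∫ x in quad, |c v * F v x| ^ 3 ≤ 1 := by
      intro v
      have e : ∀ x, |c v * F v x| ^ 3 = c v ^ 3 * |F v x| ^ 3 := fun x => by
        rw [abs_mul, abs_of_pos (hcpos v), mul_pow]
      simp only [e]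
      rw [integral_const_mul]
      calc c v ^ 3 * ∫ x in quad, |F v x| ^ 3 ≤ c v ^ 3 * N v ^ 3 :=
            mul_le_mul_of_nonneg_left (hN v) (pow_nonneg (hcpos v).le 3)
        _ = (c v * N v) ^ 3 := (mul_pow _ _ _).symm
        _ ≤ 1 := by
          refine pow_le_one₀ (mul_nonneg (hcpos v).le (hN0 v)) ?_
          rw [hc]
          change (N v + δ)⁻¹ * N v ≤ 1
          rw [inv_mul_le_iff₀ (hNδ v)]
          linarith
    have h3 : ∑ v, ∫ x in quad, |c v * F v x| ^ 3 ≤ 3 := by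
      calc ∑ v, ∫ x in quad, |c v * F v x| ^ 3 ≤ ∑ v : Fin 3, (1 : ℝ) :=
            Finset.sum_le_sum (fun v _ => h2 v)
        _ = 3 := by simp
    have hP : 0 < ∏ v, (N v + δ) := Finset.prod_pos (fun v _ => hNδ v)
    have hcP : ∏ v, c v = (∏ v, (N v + δ))⁻¹ := by
      rw [hc]; exact Finset.prod_inv_distrib _
    rw [hcP] at h
    have h4 : (∏ v, (N v + δ))⁻¹ * ∑ t ∈ T, |LI t.1 ![t.2.1, t.2.2, t.2.1 ^^^ t.2.2] F|
        ≤ 1827 / 2 := by linarith
    rw [inv_mul_le_iff₀ hP] at h4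
    linarith
  have hlim : Tendsto (fun δ : ℝ => (1827 / 2) * ∏ v, (N v + δ)) (𝓝[>] 0)
      (𝓝 ((1827 / 2) * ∏ v, (N v + 0))) := by
    have hcont : Continuous (fun δ : ℝ => (1827 / 2) * ∏ v, (N v + δ)) := by
      fun_prop
    exact (hcont.tendsto 0).mono_left nhdsWithin_le_nhds
  simp only [add_zero] at hlim
  refine ge_of_tendsto hlim ?_
  filter_upwards [self_mem_nhdsWithin] with δ hδ
  exact key δ hδ

/-! ### general functions in `L³` -/

theorem dyad_subset (k : ℤ) (n : ℕ) : dyad k n ⊆ Set.Ici 0 := by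
  intro x hx
  have h : (2 : ℝ) ^ k * n ≤ x := hx.1
  have h0 : (0 : ℝ) ≤ (2 : ℝ) ^ k * n := by positivity
  exact h0.trans h

/-- the box of a triple -/
def box (k : ℤ) (n : Fin 3 → ℕ) : Set (ℝ × ℝ × ℝ) :=
  dyad k (n 0) ×ˢ dyad k (n 1) ×ˢ dyad k (n 2)

theorem measurableSet_box (k : ℤ) (n : Fin 3 → ℕ) : MeasurableSet (box k n) :=
  measurableSet_Ico.prod (measurableSet_Ico.prod measurableSet_Ico)

theorem LI_def (k : ℤ) (n : Fin 3 → ℕ) (F : Fin 3 → ℝ × ℝ → ℝ) :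
    LI k n F = (2 : ℝ) ^ (-k) * ∫ x in box k n, integrand k n F x := rfl

/-- the integrand only depends on the values of `F` on the quadrant -/
theorem integrand_ae {F G : Fin 3 → ℝ × ℝ → ℝ} (h : ∀ v, F v =ᵐ[volume.restrict quad] G v)
    (k : ℤ) (n : Fin 3 → ℕ) :
    integrand k n F =ᵐ[volume.restrict (box k n)] integrand k n G := by
  have hq : MeasurableSet quad := measurableSet_Ici.prod measurableSet_Ici
  have h' : ∀ v, ∀ᵐ p ∂(volume : Measure (ℝ × ℝ)), p ∈ quad → F v p = G v p :=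
    fun v => (ae_restrict_iff' hq).mp (h v)
  rw [Filter.EventuallyEq, ae_restrict_iff' (measurableSet_box k n)]
  filter_upwards [qmp01.ae (h' 0), qmp12.ae (h' 1), qmp20.ae (h' 2)] with x h0 h1 h2 hx
  have a0 : (0 : ℝ) ≤ x.1 := dyad_subset _ _ hx.1
  have a1 : (0 : ℝ) ≤ x.2.1 := dyad_subset _ _ hx.2.1
  have a2 : (0 : ℝ) ≤ x.2.2 := dyad_subset _ _ hx.2.2
  rw [integrand, integrand, h0 ⟨a0, a1⟩, h1 ⟨a1, a2⟩, h2 ⟨a2, a0⟩]

theorem LI_congr_quad {F G : Fin 3 → ℝ × ℝ → ℝ} (h : ∀ v, F v =ᵐ[volume.restrict quad] G v)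
    (k : ℤ) (n : Fin 3 → ℕ) : LI k n F = LI k n G := by
  rw [LI_def, LI_def, integral_congr_ae (integrand_ae h k n)]

section proj

variable (a b c : Measure ℝ) [IsFiniteMeasure a] [IsFiniteMeasure b] [IsFiniteMeasure c]
  {g : ℝ × ℝ → ℝ}

omit [IsFiniteMeasure a] in
theorem integrable_p01 (h : Integrable g (a.prod b)) :
    Integrable (fun x : ℝ × ℝ × ℝ => g (x.1, x.2.1)) (a.prod (b.prod c)) := by
  have h1 : Integrable (fun x : (ℝ × ℝ) × ℝ => g x.1) ((a.prod b).prod c) := h.comp_fst c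
  have h2 := (measurePreserving_prodAssoc a b c).symm
  exact h2.integrable_comp_of_integrable h1

theorem integrable_p12 (h : Integrable g (b.prod c)) :
    Integrable (fun x : ℝ × ℝ × ℝ => g (x.2.1, x.2.2)) (a.prod (b.prod c)) :=
  h.comp_snd a

theorem integrable_p20 (h : Integrable g (c.prod a)) :
    Integrable (fun x : ℝ × ℝ × ℝ => g (x.2.2, x.1)) (a.prod (b.prod c)) := by
  have h1 := integrable_p01 a c b h.swap
  have h2 : MeasurePreserving (Prod.map id Prod.swap : ℝ × (ℝ × ℝ) → ℝ × (ℝ × ℝ))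
      (a.prod (b.prod c)) (a.prod (c.prod b)) :=
    (MeasurePreserving.id a).prod Measure.measurePreserving_swap
  exact h2.integrable_comp_of_integrable h1

end proj

theorem abs_mul3_le_cubes (x y z : ℝ) : |x * y * z| ≤ |x| ^ 3 + |y| ^ 3 + |z| ^ 3 := by
  have h : ∀ u v w : ℝ, 0 ≤ u → 0 ≤ v → 0 ≤ w → u * v * w ≤ u ^ 3 + v ^ 3 + w ^ 3 := by
    intro u v w hu hv hw
    set m := max u (max v w) with hm
    have h1 : u ≤ m := le_max_left _ _
    have h2 : v ≤ m := (le_max_left _ _).trans (le_max_right _ _)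
    have h3 : w ≤ m := (le_max_right _ _).trans (le_max_right _ _)
    have hm0 : 0 ≤ m := hu.trans h1
    have h4 : u * v * w ≤ m ^ 3 := by
      calc u * v * w ≤ m * m * m := by gcongr
        _ = m ^ 3 := by ring
    have h5 : m ^ 3 ≤ u ^ 3 + v ^ 3 + w ^ 3 := by
      have a1 : 0 ≤ u ^ 3 := by positivity
      have a2 : 0 ≤ v ^ 3 := by positivity
      have a3 : 0 ≤ w ^ 3 := by positivity
      rcases max_choice u (max v w) with e | e
      · rw [hm, e]; linarith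
      · rcases max_choice v w with e' | e'
        · rw [hm, e, e']; linarith
        · rw [hm, e, e']; linarith
    exact h4.trans h5
  rw [abs_mul, abs_mul]
  exact h _ _ _ (abs_nonneg _) (abs_nonneg _) (abs_nonneg _)

theorem restrict_box (k : ℤ) (n : Fin 3 → ℕ) :
    (volume : Measure (ℝ × ℝ × ℝ)).restrict (box k n)
      = (volume.restrict (dyad k (n 0))).prod
          ((volume.restrict (dyad k (n 1))).prod (volume.restrict (dyad k (n 2)))) := by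
  rw [Measure.prod_restrict, Measure.prod_restrict]
  rfl

theorem integrableOn_cubes {G : Fin 3 → ℝ × ℝ → ℝ}
    (hI : ∀ v, IntegrableOn (fun x => |G v x| ^ 3) quad) (k : ℤ) (n : Fin 3 → ℕ) :
    IntegrableOn (fun x : ℝ × ℝ × ℝ =>
      |G 0 (x.1, x.2.1)| ^ 3 + |G 1 (x.2.1, x.2.2)| ^ 3 + |G 2 (x.2.2, x.1)| ^ 3) (box k n) := by
  have hfin : ∀ m : ℕ, IsFiniteMeasure (volume.restrict (dyad k m)) := fun m =>
    ⟨by rw [Measure.restrict_apply_univ]; exact volume_dyad_lt k m⟩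
  have := hfin (n 0)
  have := hfin (n 1)
  have := hfin (n 2)
  have hsub : ∀ (v : Fin 3) (i j : ℕ), Integrable (fun x => |G v x| ^ 3)
      ((volume.restrict (dyad k i)).prod (volume.restrict (dyad k j))) := by
    intro v i j
    rw [Measure.prod_restrict]
    exact (hI v).mono_set (Set.prod_mono (dyad_subset k i) (dyad_subset k j))
  rw [IntegrableOn, restrict_box]
  exact ((integrable_p01 _ _ _ (hsub 0 (n 0) (n 1))).add
    (integrable_p12 _ _ _ (hsub 1 (n 1) (n 2)))).add (integrable_p20 _ _ _ (hsub 2 (n 2) (n 0)))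

theorem integrand_le_cubes (k : ℤ) (n : Fin 3 → ℕ) (G : Fin 3 → ℝ × ℝ → ℝ) (x : ℝ × ℝ × ℝ) :
    |integrand k n G x|
      ≤ |G 0 (x.1, x.2.1)| ^ 3 + |G 1 (x.2.1, x.2.2)| ^ 3 + |G 2 (x.2.2, x.1)| ^ 3 := by
  unfold integrand
  rw [abs_mul]
  have h1 := abs_mul3_le_cubes (G 0 (x.1, x.2.1)) (G 1 (x.2.1, x.2.2)) (G 2 (x.2.2, x.1))
  have h2 := abs_mul3_le zero_le_one (haar_abs_le k (n 0) x.1) (haar_abs_le k (n 1) x.2.1)
    (haar_abs_le k (n 2) x.2.2)
  rw [one_pow] at h2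
  calc _ ≤ |G 0 (x.1, x.2.1) * G 1 (x.2.1, x.2.2) * G 2 (x.2.2, x.1)| * 1 := by gcongr
    _ ≤ _ := by rw [mul_one]; exact h1

theorem integrableOn_integrand {G : Fin 3 → ℝ × ℝ → ℝ} (hG : ∀ v, Measurable (G v))
    (hI : ∀ v, IntegrableOn (fun x => |G v x| ^ 3) quad) (k : ℤ) (n : Fin 3 → ℕ) :
    IntegrableOn (integrand k n G) (box k n) := by
  refine (integrableOn_cubes hI k n).mono' (measurable_integrand k n hG).aestronglyMeasurable ?_
  exact Eventually.of_forall fun x => by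
    rw [Real.norm_eq_abs]; exact integrand_le_cubes k n G x

/-- truncation -/
noncomputable def trunc (R : ℕ) (g : ℝ × ℝ → ℝ) : ℝ × ℝ → ℝ :=
  {p | |g p| ≤ R}.indicator g

theorem trunc_abs_le (R : ℕ) (g : ℝ × ℝ → ℝ) (p : ℝ × ℝ) : |trunc R g p| ≤ R := by
  unfold trunc
  by_cases hp : p ∈ {p | |g p| ≤ (R : ℝ)}
  · rw [indicator_of_mem hp]; exact hp
  · rw [indicator_of_notMem hp]; simp

theorem trunc_abs_le' (R : ℕ) (g : ℝ × ℝ → ℝ) (p : ℝ × ℝ) : |trunc R g p| ≤ |g p| := by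
  unfold trunc
  by_cases hp : p ∈ {p | |g p| ≤ (R : ℝ)}
  · rw [indicator_of_mem hp]
  · rw [indicator_of_notMem hp]; simp

theorem measurable_trunc (R : ℕ) {g : ℝ × ℝ → ℝ} (hg : Measurable g) : Measurable (trunc R g) := by
  unfold trunc
  exact hg.indicator (measurableSet_le (continuous_abs.measurable.comp hg) measurable_const)

theorem trunc_tendsto (g : ℝ × ℝ → ℝ) (p : ℝ × ℝ) :
    Tendsto (fun R : ℕ => trunc R g p) atTop (𝓝 (g p)) := by
  obtain ⟨N, hN⟩ := exists_nat_ge |g p|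
  refine tendsto_atTop_of_eventually_const (i₀ := N) (fun R hR => ?_)
  unfold trunc
  have hp : p ∈ {p | |g p| ≤ (R : ℝ)} := by
    change |g p| ≤ (R : ℝ)
    exact hN.trans (by exact_mod_cast hR)
  rw [indicator_of_mem hp]

theorem LI_tendsto {G : Fin 3 → ℝ × ℝ → ℝ} (hG : ∀ v, Measurable (G v))
    (hI : ∀ v, IntegrableOn (fun x => |G v x| ^ 3) quad) (k : ℤ) (n : Fin 3 → ℕ) :
    Tendsto (fun R : ℕ => LI k n (fun v => trunc R (G v))) atTop (𝓝 (LI k n G)) := by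
  simp only [LI_def]
  refine Tendsto.const_mul _ ?_
  refine tendsto_integral_of_dominated_convergence (fun x : ℝ × ℝ × ℝ =>
      |G 0 (x.1, x.2.1)| ^ 3 + |G 1 (x.2.1, x.2.2)| ^ 3 + |G 2 (x.2.2, x.1)| ^ 3)
    (fun R => (measurable_integrand k n fun v => measurable_trunc R (hG v)).aestronglyMeasurable)
    (integrableOn_cubes hI k n) (fun R => Eventually.of_forall fun x => ?_)
    (Eventually.of_forall fun x => ?_)
  · rw [Real.norm_eq_abs]
    refine (integrand_le_cubes k n _ x).trans ?_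
    have h : ∀ (v : Fin 3) (p : ℝ × ℝ), |trunc R (G v) p| ^ 3 ≤ |G v p| ^ 3 := fun v p =>
      pow_le_pow_left₀ (abs_nonneg _) (trunc_abs_le' R (G v) p) 3
    exact add_le_add (add_le_add (h 0 _) (h 1 _)) (h 2 _)
  · unfold integrand
    exact (((trunc_tendsto (G 0) _).mul (trunc_tendsto (G 1) _)).mul
      (trunc_tendsto (G 2) _)).mul_const _

/-- finite sums of `|L_I|` for `L³` functions -/
theorem fin_L3_le (T : Finset (ℤ × (ℕ × ℕ))) {G : Fin 3 → ℝ × ℝ → ℝ}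
    (hG : ∀ v, Measurable (G v)) (hI : ∀ v, IntegrableOn (fun x => |G v x| ^ 3) quad)
    {N : Fin 3 → ℝ} (hN0 : ∀ v, 0 ≤ N v) (hN : ∀ v, ∫ x in quad, |G v x| ^ 3 ≤ N v ^ 3) :
    ∑ t ∈ T, |LI t.1 ![t.2.1, t.2.2, t.2.1 ^^^ t.2.2] G| ≤ (1827 / 2) * ∏ v, N v := by
  have hlim : Tendsto (fun R : ℕ => ∑ t ∈ T,
      |LI t.1 ![t.2.1, t.2.2, t.2.1 ^^^ t.2.2] (fun v => trunc R (G v))|) atTop
      (𝓝 (∑ t ∈ T, |LI t.1 ![t.2.1, t.2.2, t.2.1 ^^^ t.2.2] G|)) :=
    tendsto_finsetSum _ fun t _ => (LI_tendsto hG hI _ _).abs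
  refine le_of_tendsto' hlim (fun R => ?_)
  have hIR : ∀ v, IntegrableOn (fun x => |trunc R (G v) x| ^ 3) quad := by
    intro v
    refine (hI v).mono' ((continuous_abs.measurable.comp
      (measurable_trunc R (hG v))).pow_const 3).aestronglyMeasurable ?_
    exact Eventually.of_forall fun x => by
      rw [Real.norm_eq_abs, abs_of_nonneg (by positivity)]
      exact pow_le_pow_left₀ (abs_nonneg _) (trunc_abs_le' R (G v) x) 3
  refine fin_prod_le T (fun v => measurable_trunc R (hG v)) (M := R) (Nat.cast_nonneg R)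
    (fun v p => trunc_abs_le R (G v) p) hIR hN0 (fun v => ?_)
  refine le_trans ?_ (hN v)
  refine integral_mono (hIR v) (hI v) (fun x => ?_)
  exact pow_le_pow_left₀ (abs_nonneg _) (trunc_abs_le' R (G v) x) 3

/-- a measurable version on the quadrant -/
theorem exists_version {F : Fin 3 → ℝ × ℝ → ℝ} (hF : ∀ v, MemLp (F v) 3 (volume.restrict quad)) :
    ∃ G : Fin 3 → ℝ × ℝ → ℝ, (∀ v, Measurable (G v)) ∧
      (∀ v, F v =ᵐ[volume.restrict quad] G v) ∧
      (∀ v, IntegrableOn (fun x => |G v x| ^ 3) quad) ∧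
      ∀ v, ∫ x in quad, |G v x| ^ 3 = (eLpNorm (F v) 3 (volume.restrict quad)).toReal ^ 3 := by
  have hm : ∀ v, Measurable ((hF v).1.mk (F v)) := fun v =>
    (hF v).1.stronglyMeasurable_mk.measurable
  have hI : ∀ v, IntegrableOn (fun x => |(hF v).1.mk (F v) x| ^ 3) quad := by
    intro v
    have h1 : MemLp ((hF v).1.mk (F v)) 3 (volume.restrict quad) :=
      (hF v).ae_eq (hF v).1.ae_eq_mk
    rw [← integrable_norm_rpow_iff (hm v).aestronglyMeasurable (by norm_num) (by norm_num)] at h1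
    refine h1.congr (Eventually.of_forall (fun x => ?_))
    simp [Real.norm_eq_abs]
  refine ⟨fun v => (hF v).1.mk (F v), hm, fun v => (hF v).1.ae_eq_mk, hI, fun v => ?_⟩
  have e := eLpNorm_congr_ae (p := 3) (hF v).1.ae_eq_mk
  rw [e]
  exact eLpNorm_cube (hm v) (hI v)

theorem integrableOn_of_memLp {F : Fin 3 → ℝ × ℝ → ℝ}
    (hF : ∀ v, MemLp (F v) 3 (volume.restrict quad)) (k : ℤ) (n : Fin 3 → ℕ) :
    IntegrableOn (integrand k n F) (box k n) := by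
  obtain ⟨G, hG, hFG, hI, _⟩ := exists_version hF
  exact (integrableOn_integrand hG hI k n).congr (integrand_ae hFG k n).symm

theorem finset_le {F : Fin 3 → ℝ × ℝ → ℝ} (hF : ∀ v, MemLp (F v) 3 (volume.restrict quad))
    (T : Finset (ℤ × {n : Fin 3 → ℕ // n 0 ^^^ n 1 ^^^ n 2 = 0})) :
    ∑ t ∈ T, |LI t.1 t.2.1 F|
      ≤ (1827 / 2) * ∏ v, (eLpNorm (F v) 3 (volume.restrict quad)).toReal := by
  obtain ⟨G, hG, hFG, hI, hN⟩ := exists_version hF
  have h := fin_L3_le (T.map ((Equiv.refl ℤ).prodCongr xorEquiv.symm).toEmbedding) hG hI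
    (N := fun v => (eLpNorm (F v) 3 (volume.restrict quad)).toReal)
    (fun v => ENNReal.toReal_nonneg) (fun v => (hN v).le)
  rw [Finset.sum_map] at h
  refine le_trans (le_of_eq (Finset.sum_congr rfl fun t _ => ?_)) h
  rw [LI_congr_quad hFG]
  have e : (![(xorEquiv.symm t.2).1, (xorEquiv.symm t.2).2,
      (xorEquiv.symm t.2).1 ^^^ (xorEquiv.symm t.2).2] : Fin 3 → ℕ) = t.2.1 := by
    have := congrArg Subtype.val (xorEquiv.apply_symm_apply t.2)
    exact this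
  change |LI t.1 t.2.1 G| = |LI t.1 ![(xorEquiv.symm t.2).1, (xorEquiv.symm t.2).2,
      (xorEquiv.symm t.2).1 ^^^ (xorEquiv.symm t.2).2] G|
  rw [e]

/-- the absolute form of the bound, for all `L³` functions -/
theorem abs_main {F : Fin 3 → ℝ × ℝ → ℝ} (hF : ∀ v, MemLp (F v) 3 (volume.restrict quad)) :
    Summable (fun t : ℤ × {n : Fin 3 → ℕ // n 0 ^^^ n 1 ^^^ n 2 = 0} => |LI t.1 t.2.1 F|) ∧
    ∑' t : ℤ × {n : Fin 3 → ℕ // n 0 ^^^ n 1 ^^^ n 2 = 0}, |LI t.1 t.2.1 F|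
      ≤ (1827 / 2) * ∏ v, (eLpNorm (F v) 3 (volume.restrict quad)).toReal :=
  ⟨summable_of_sum_le (fun _ => abs_nonneg _) (finset_le hF),
    Real.tsum_le_of_sum_le (fun _ => abs_nonneg _) (finset_le hF)⟩

/-- arbitrary bounded coefficients depending on the whole triple -/
theorem coeff_main {F : Fin 3 → ℝ × ℝ → ℝ} (hF : ∀ v, MemLp (F v) 3 (volume.restrict quad))
    (ε : ℤ → (Fin 3 → ℕ) → ℝ) (hε : ∀ k n, |ε k n| ≤ 1) :
    Summable (fun t : ℤ × {n : Fin 3 → ℕ // n 0 ^^^ n 1 ^^^ n 2 = 0} =>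
      ε t.1 t.2.1 * LI t.1 t.2.1 F) ∧
    |∑' t : ℤ × {n : Fin 3 → ℕ // n 0 ^^^ n 1 ^^^ n 2 = 0}, ε t.1 t.2.1 * LI t.1 t.2.1 F|
      ≤ (1827 / 2) * ∏ v, (eLpNorm (F v) 3 (volume.restrict quad)).toReal := by
  obtain ⟨hs, ht⟩ := abs_main hF
  have hle : ∀ t : ℤ × {n : Fin 3 → ℕ // n 0 ^^^ n 1 ^^^ n 2 = 0},
      |ε t.1 t.2.1 * LI t.1 t.2.1 F| ≤ |LI t.1 t.2.1 F| := by
    intro t
    rw [abs_mul]
    calc _ ≤ 1 * |LI t.1 t.2.1 F| := by
          exact mul_le_mul_of_nonneg_right (hε _ _) (abs_nonneg _)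
      _ = _ := one_mul _
  have hs' : Summable (fun t : ℤ × {n : Fin 3 → ℕ // n 0 ^^^ n 1 ^^^ n 2 = 0} =>
      |ε t.1 t.2.1 * LI t.1 t.2.1 F|) :=
    Summable.of_nonneg_of_le (fun _ => abs_nonneg _) hle hs
  refine ⟨hs'.of_abs, ?_⟩
  have h1 : |∑' t : ℤ × {n : Fin 3 → ℕ // n 0 ^^^ n 1 ^^^ n 2 = 0},
      ε t.1 t.2.1 * LI t.1 t.2.1 F| ≤ ∑' t : ℤ × {n : Fin 3 → ℕ // n 0 ^^^ n 1 ^^^ n 2 = 0},
      |ε t.1 t.2.1 * LI t.1 t.2.1 F| := by
    have := norm_tsum_le_tsum_norm (f := fun t : ℤ × {n : Fin 3 → ℕ // n 0 ^^^ n 1 ^^^ n 2 = 0} =>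
      ε t.1 t.2.1 * LI t.1 t.2.1 F) (by simpa [Real.norm_eq_abs] using hs')
    simpa [Real.norm_eq_abs] using this
  exact h1.trans ((hs'.tsum_le_tsum hle hs).trans ht)

/-- the form of the problem for all `L³` functions -/
theorem form_main {F : Fin 3 → ℝ × ℝ → ℝ} (hF : ∀ v, MemLp (F v) 3 (volume.restrict quad))
    (S : Finset ℤ) (ε : ℤ → ℝ) (hε : ∀ k ∈ S, |ε k| ≤ 1) :
    |form S ε F| ≤ (1827 / 2) * ∏ v, (eLpNorm (F v) 3 (volume.restrict quad)).toReal := by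
  classical
  obtain ⟨hs, ht⟩ := coeff_main hF (fun k _ => if k ∈ S then ε k else 0) (fun k _ => by
    by_cases hk : k ∈ S
    · simp only [hk, if_true]; exact hε k hk
    · simp only [hk, if_false, abs_zero]; exact zero_le_one)
  refine le_trans (le_of_eq ?_) ht
  rw [hs.tsum_prod, form]
  rw [tsum_eq_sum (s := S)]
  · congr 1
    refine Finset.sum_congr rfl (fun k hk => ?_)
    simp only [hk, if_true]
    rw [tsum_mul_left]
  · intro k hk
    simp only [hk, if_false, zero_mul, tsum_zero]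

end Vale.Agent.P075.H83
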